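import Vale.Agent.P371.Bdl.B2

/-!
Equality cases of the sharp one-dimensional Lieb-Thirring inequality: working definitions and
the blocks of the proof, as propositions.
-/

namespace Vale.Agent.P371E

open MeasureTheory Filter Topology Matrix Set
open Vale.Agent.P371 Vale.Agent.P371.G Vale.Agent.P371.PI
open scoped ComplexOrder MatrixOrder Matrix.Norms.L2Operator

abbrev Mat (n k : ℕ) := Matrix (Fin n) (Fin k) ℂ

abbrev Vec (m : ℕ) := EuclideanSpace ℂ (Fin m)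

/-- orthonormality in `L²` -/
def Orth {m N : ℕ} (f : Fin N → ℝ → Vec m) : Prop :=
  ∀ i j, ∫ x, inner ℂ (f i x) (f j x) = if i = j then (1 : ℂ) else 0

/-- an orthonormal system of eigenfunctions with negative eigenvalues -/
structure Sys {m N : ℕ} (W : ℝ → Mat m m) (lam : Fin N → ℝ) (f f' : Fin N → ℝ → Vec m) :
    Prop where
  neg : ∀ j, lam j < 0
  eig : ∀ j, IsEigenfunction W (lam j) (f j) (f' j)
  on : Orth f

/-- real diagonal matrix -/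
noncomputable def dg {N : ℕ} (d : Fin N → ℝ) : Mat N N := diagonal fun j => ((d j : ℝ) : ℂ)

/-- `Λ = diag |λ_j|` -/
noncomputable def Lam {N : ℕ} (lam : Fin N → ℝ) : Mat N N := dg fun j => -lam j

/-- squared Hilbert-Schmidt norm -/
noncomputable def hs {n k : ℕ} (M : Mat n k) : ℝ := (Mᴴ * M).trace.re

/-- the defect `‖Z - D‖ + ‖[K², F]‖`, `D = K² - F²` (operator norms) -/
noncomputable def eta {N : ℕ} (K F Z : Mat N N) : ℝ :=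
  ‖Z - (K * K - F * F)‖ + ‖K * K * F - F * (K * K)‖

/-- the deficit in `GII.trace_mul_lt_le` (Gibbs and Golden-Thompson at fixed `t`) -/
noncomputable def dft {N : ℕ} (K F Z : Mat N N) (t : ℝ) : ℝ :=
  GII.GG t Z + (K * K - F * F).trace.re
    - ((Z * GII.lt K F t).trace.re + t * (GII.lt K F t).trace.re)

/-- `θ Q`, `θ = ν / (1 + ν)` -/
noncomputable def th {N : ℕ} (ν : ℝ) (Q : Mat N N) : Mat N N := ((ν / (1 + ν) : ℝ) : ℂ) • Q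

/-- `∫ tr W^(γ+1/2)` -/
noncomputable def II {m : ℕ} (γ : ℝ) (W : ℝ → Mat m m) : ℝ := ∫ x, trPow (γ + 1 / 2) (W x)

/-- the a priori bound of `‖K‖` -/
noncomputable def Bd {m : ℕ} (γ : ℝ) (W : ℝ → Mat m m) : ℝ := (Cg γ * II γ W + 1) ^ (1 / (2 * γ))

/-- the soliton `(1 + 1/ν) k² sech² (k (x - c) / ν)` -/
noncomputable def wS (ν k c x : ℝ) : ℝ := k ^ 2 * ((1 + 1 / ν) * sech2 (1 / ν) (k * (x - c)))

/-- its ground state `sech^ν (k (x - c) / ν)` -/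
noncomputable def sS (ν k c x : ℝ) : ℝ := psi (1 / ν) (k * (x - c))

/-- the logarithmic derivative `- k tanh (k (x - c) / ν)` of the ground state -/
noncomputable def gS (ν k c x : ℝ) : ℝ := -(k * tn (1 / ν) (k * (x - c)))

/-- pointwise lower bound of the deficit, uniform in the dimension -/
def PW : Prop := ∀ B : ℝ, ∃ C : ℝ, 0 < C ∧ ∀ (N : ℕ) (K F Z : Mat N N) (t s : ℝ),
  K.PosSemidef → ‖K‖ ≤ B → (K - F).PosSemidef → (K + F).PosSemidef → Z.PosSemidef →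
  1 ≤ t → t ≤ 2 → 0 < s → s ≤ 1 → s * eta K F Z ≤ C * (s ^ 2 + dft K F Z t)

/-- `GII.partII` with deficit -/
def P2D : Prop := ∀ ν B : ℝ, 0 < ν → ν < 1 → ∃ C : ℝ, 0 < C ∧
  ∀ (N : ℕ) (a : ℝ) (K : Mat N N) (F Q : ℝ → Mat N N), 0 < a → K.PosSemidef → ‖K‖ ≤ B →
  (∀ x ∈ Icc (-a) a, HasDerivWithinAt F (K * K - F x * F x - Q x) (Icc (-a) a) x) →
  ContinuousOn Q (Icc (-a) a) → (∀ x ∈ Icc (-a) a, (Q x).PosSemidef) → F (-a) = K → F a = -K →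
  (∀ x ∈ Icc (-a) a, (K - F x).PosSemidef ∧ (K + F x).PosSemidef) →
  ∀ s R : ℝ, 0 < s → s ≤ 1 → 0 ≤ R → R ≤ a →
  s * (∫ x in (-R)..R, eta K (F x) (th ν (Q x))) ≤ C * (s ^ 2 * R +
    ((1 / ν) * (ν / (1 + ν)) ^ (1 + ν) * (∫ x in (-a)..a, trPow (1 + ν) (Q x))
      - (∫ y in (-1 : ℝ)..1, (1 - y ^ 2) ^ ν) * trPow (2 * ν + 1) K))

/-- `PI.test_sum` with deficit -/
def T2D : Prop := ∀ (N m : ℕ) (K r : Mat N N) (a ε : ℝ) (V : ℝ → Mat m m) (F : ℝ → Mat N N)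
  (f f' : Fin N → ℝ → Vec m), K.IsHermitian → r.IsHermitian → 0 < a → 0 < ε → Continuous V →
  (∀ x, (V x).PosSemidef) → (∀ j, IsH1 (f j) (f' j)) → Orth f →
  (∀ x ∈ Icc (-a) a, HasDerivWithinAt F
    (K * K - F x * F x - regQ ε (psiM f x * r) (V x)) (Icc (-a) a) x) →
  (∀ x ∈ Icc (-a) a, (F x).IsHermitian) → F (-a) = K → F a = -K →
  IntervalIntegrable (fun x => hs (psiM f' x * r - psiM f x * r * F x)) volume (-a) a ∧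
  (r * r * LamM a V f f').trace.re - ε * (∫ x in (-a)..a, (V x).trace.re)
    + (∫ x in (-a)..a, hs (psiM f' x * r - psiM f x * r * F x)) ≤ (K * K * (r * r)).trace.re

/-- an approximant on `[-R, R]` with all deficits at most `σ` -/
structure Apx {m N : ℕ} (γ : ℝ) (W : ℝ → Mat m m) (lam : Fin N → ℝ) (f f' : Fin N → ℝ → Vec m)
    (R σ ε : ℝ) (V : ℝ → Mat m m) (K r : Mat N N) (F : ℝ → Mat N N) : Prop where
  eps : 0 < ε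
  Vc : Continuous V
  Vp : ∀ x, (V x).PosSemidef
  Kp : K.PosDef
  Kn : ‖K‖ ≤ Bd γ W
  Kl : ∑ j, |lam j| ^ γ - σ ≤ trPow (2 * γ) K
  rdef : (γ ≤ 1 ∧ r = cfc (fun x : ℝ => x ^ (γ - 1)) K) ∨
    (1 < γ ∧ r = dg (fun j => (-lam j) ^ ((γ - 1) / 2)) ∧ hs (K * K - Lam lam) ≤ σ)
  rb : (r * r * Lam lam).trace.re ≤ 2 * (Cg γ * II γ W + 1)
  der : ∀ x ∈ Icc (-R) R, HasDerivAt F (K * K - F x * F x - regQ ε (psiM f x * r) (V x)) x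
  sand : ∀ x ∈ Icc (-R) R, (K - F x).PosSemidef ∧ (K + F x).PosSemidef
  near : ∫ x in (-R)..R, ‖V x - W x‖ ≤ σ
  d2i : IntervalIntegrable (fun x => hs (psiM f' x * r - psiM f x * r * F x)) volume (-R) R
  d2 : ∫ x in (-R)..R, hs (psiM f' x * r - psiM f x * r * F x) ≤ σ
  d4 : ∫ x in (-R)..R, eta K (F x) (th (γ - 1 / 2) (regQ ε (psiM f x * r) (V x))) ≤ σ

/-- nearly optimal systems have approximants, uniformly in their size -/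
def APX : Prop := ∀ γ : ℝ, 1 / 2 < γ → γ < 3 / 2 → ∀ (m : ℕ) (W : ℝ → Mat m m),
  IsPotential (γ + 1 / 2) W → ∀ R σ : ℝ, 0 < R → 0 < σ → ∃ δ : ℝ, 0 < δ ∧
  ∀ (N : ℕ) (lam : Fin N → ℝ) (f f' : Fin N → ℝ → Vec m), Sys W lam f f' →
  Cg γ * II γ W - δ ≤ ∑ j, |lam j| ^ γ → ∃ ε V K r F, Apx γ W lam f f' R σ ε V K r F

/-- the form is defined on `H¹`; eigenfunction systems are uniformly bounded -/
def FORM : Prop := ∀ p : ℝ, 1 < p → ∀ (m : ℕ) (W : ℝ → Mat m m), IsPotential p W →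
  (∀ g g' h h' : ℝ → Vec m, IsH1 g g' → IsH1 h h' →
    Integrable (fun x => (inner ℂ (g x) (Matrix.toEuclideanLin (W x) (h x)) : ℂ)) volume) ∧
  ∃ B : ℝ, ∀ (N : ℕ) (lam : Fin N → ℝ) (f f' : Fin N → ℝ → Vec m), Sys W lam f f' →
    ∀ x, ‖psiM f x‖ ≤ B

/-- more than `m` eigenvalues exclude optimality -/
def EXC : Prop := ∀ γ : ℝ, 1 / 2 < γ → γ < 3 / 2 → ∀ (m : ℕ) (W : ℝ → Mat m m),
  IsPotential (γ + 1 / 2) W → ∀ (lam0 : Fin (m + 1) → ℝ) (f0 f0' : Fin (m + 1) → ℝ → Vec m),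
  Sys W lam0 f0 f0' → ∃ δ : ℝ, 0 < δ ∧ ∀ (L : ℕ) (lam : Fin (m + 1 + L) → ℝ)
  (f f' : Fin (m + 1 + L) → ℝ → Vec m), Sys W lam f f' →
  (∀ j, lam (Fin.castAdd L j) = lam0 j ∧ f (Fin.castAdd L j) = f0 j ∧
    f' (Fin.castAdd L j) = f0' j) → ∑ j, |lam j| ^ γ ≤ Cg γ * II γ W - δ

/-- every system extends to one that dominates another given system -/
def EXT : Prop := ∀ p γ : ℝ, 1 < p → ∀ (m : ℕ) (W : ℝ → Mat m m), IsPotential p W →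
  ∀ (N M : ℕ) (lam0 : Fin N → ℝ) (f0 f0' : Fin N → ℝ → Vec m) (mu : Fin M → ℝ)
  (g g' : Fin M → ℝ → Vec m), Sys W lam0 f0 f0' → Sys W mu g g' →
  ∃ (L : ℕ) (lam : Fin (N + L) → ℝ) (f f' : Fin (N + L) → ℝ → Vec m), Sys W lam f f' ∧
  (∀ j, lam (Fin.castAdd L j) = lam0 j ∧ f (Fin.castAdd L j) = f0 j ∧
    f' (Fin.castAdd L j) = f0' j) ∧ ∑ j, |mu j| ^ γ ≤ ∑ j, |lam j| ^ γ

/-- the three kinds of solutions of `g' = -(k² - g²)/ν`, `|g| ≤ k` -/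
def Tri (ν k : ℝ) (g : ℝ → ℝ) : Prop :=
  (g = fun _ => k) ∨ (g = fun _ => -k) ∨ (0 < k ∧ ∃ c, g = gS ν k c)

/-- stability of the limit equation `F' = -(K² - F²)/ν`, `[K, F] = 0` -/
def ODE : Prop := ∀ (ν B : ℝ) (N : ℕ) (K : ℕ → Mat N N) (F Q : ℕ → ℝ → Mat N N) (ρ σ : ℕ → ℝ),
  0 < ν → Tendsto ρ atTop atTop → Tendsto σ atTop (𝓝 0) → (∀ n, (K n).PosSemidef) →
  (∀ n, ‖K n‖ ≤ B) → (∀ n, Continuous (Q n)) →
  (∀ n, ∀ x ∈ Icc (-ρ n) (ρ n), HasDerivAt (F n) (K n * K n - F n x * F n x - Q n x) x) →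
  (∀ n, ∀ x ∈ Icc (-ρ n) (ρ n), (K n - F n x).PosSemidef ∧ (K n + F n x).PosSemidef) →
  (∀ n, ∫ x in (-ρ n)..(ρ n), eta (K n) (F n x) (th ν (Q n x)) ≤ σ n) →
  ∃ (φ : ℕ → ℕ) (U : Mat N N) (k : Fin N → ℝ) (g : Fin N → ℝ → ℝ), StrictMono φ ∧ Uᴴ * U = 1 ∧
    (∀ i, 0 ≤ k i) ∧ (∀ i, Tri ν (k i) (g i)) ∧
    Tendsto (fun n => K (φ n)) atTop (𝓝 (U * dg k * Uᴴ)) ∧
    ∀ R : ℝ, TendstoUniformlyOn (fun n => F (φ n)) (fun x => U * dg (fun i => g i x) * Uᴴ) atTop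
      (Icc (-R) R)

/-- the columns of `Ψ r U` are ground states times constant vectors -/
def COL : Prop := ∀ (ν : ℝ) (m N : ℕ) (f f' : Fin N → ℝ → Vec m) (r : ℕ → Mat N N)
  (r0 U : Mat N N) (F : ℕ → ℝ → Mat N N) (k : Fin N → ℝ) (g : Fin N → ℝ → ℝ) (ρ σ : ℕ → ℝ),
  0 < ν → (∀ j, IsH1 (f j) (f' j)) → Orth f → Tendsto r atTop (𝓝 r0) → IsUnit r0 → Uᴴ * U = 1 →
  (∀ i, Tri ν (k i) (g i)) → Tendsto ρ atTop atTop → Tendsto σ atTop (𝓝 0) →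
  (∀ n, ContinuousOn (F n) (Icc (-ρ n) (ρ n))) →
  (∀ R : ℝ, TendstoUniformlyOn F (fun x => U * dg (fun i => g i x) * Uᴴ) atTop (Icc (-R) R)) →
  (∀ n, IntervalIntegrable (fun x => hs (psiM f' x * r n - psiM f x * r n * F n x)) volume
    (-ρ n) (ρ n)) →
  (∀ n, ∫ x in (-ρ n)..(ρ n), hs (psiM f' x * r n - psiM f x * r n * F n x) ≤ σ n) →
  ∃ (c : Fin N → ℝ) (C : Mat m N), (∀ i, 0 < k i ∧ g i = gS ν (k i) (c i)) ∧
    ∀ x, psiM f x * r0 * U = C * dg fun i => sS ν (k i) (c i) x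

/-- the limit of the approximants of an optimal system -/
def LIM : Prop := ∀ γ : ℝ, 1 / 2 < γ → γ < 3 / 2 → ∀ (m N : ℕ) (W : ℝ → Mat m m)
  (lam : Fin N → ℝ) (f f' : Fin N → ℝ → Vec m), IsPotential (γ + 1 / 2) W → Sys W lam f f' →
  ∑ j, |lam j| ^ γ = Cg γ * II γ W →
  ∃ (r : Mat N N) (k c : Fin N → ℝ) (C : Mat m N), IsUnit r ∧ (∀ i, 0 < k i) ∧
    (∃ H : Mat N N, H.IsHermitian ∧ (r * dg (fun i => k i ^ 2) = H * r ∨ Lam lam * r = r * H)) ∧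
    ∑ j, |lam j| ^ γ ≤ ∑ i, k i ^ (2 * γ) ∧
    (∀ x, psiM f x * r = C * dg fun i => sS (γ - 1 / 2) (k i) (c i) x) ∧
    ∀ᵐ x, ∃ V : Mat N m, (1 - Vᴴ * V).PosSemidef ∧
      V * W x * Vᴴ = dg (fun i => wS (γ - 1 / 2) (k i) (c i) x) ∧
      ∀ ξ : Fin m → ℂ, (psiM f x)ᴴ *ᵥ ξ = 0 → V *ᵥ ξ = 0

/-- equality in `PI.trPow_conj_le` -/
def PT : Prop := ∀ (p : ℝ) (m N : ℕ) (W : Mat m m) (V : Mat N m), 1 < p → W.PosSemidef →
  (1 - Vᴴ * V).PosSemidef → (V * W * Vᴴ).PosDef → trPow p W ≤ trPow p (V * W * Vᴴ) →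
  V * Vᴴ = 1 ∧ W = Vᴴ * (V * W * Vᴴ) * V

/-- the soliton is an optimizer -/
def SOL : Prop := ∀ γ k c : ℝ, 1 / 2 < γ → 0 < k →
  Integrable (fun x => wS (γ - 1 / 2) k c x ^ (γ + 1 / 2)) volume ∧
  Cg γ * ∫ x, wS (γ - 1 / 2) k c x ^ (γ + 1 / 2) = k ^ (2 * γ)

/-- the eigenvalue equation, almost everywhere, for a twice differentiable eigenfunction -/
def EIG : Prop := ∀ (m : ℕ) (W : ℝ → Mat m m) (lam : ℝ) (f f' u v : ℝ → Vec m),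
  LocallyIntegrable W volume → IsEigenfunction W lam f f' → (∀ x, HasDerivAt f (u x) x) →
  (∀ x, HasDerivAt u (v x) x) → Continuous v →
  ∀ᵐ x, Matrix.toEuclideanLin (W x) (f x) = -v x - (lam : ℂ) • f x

/-- structure of a potential with an optimal finite system -/
def STR : Prop := ∀ γ : ℝ, 1 / 2 < γ → γ < 3 / 2 → ∀ (m N : ℕ) (W : ℝ → Mat m m)
  (lam : Fin N → ℝ) (f f' : Fin N → ℝ → Vec m), IsPotential (γ + 1 / 2) W → Sys W lam f f' →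
  ∑ j, |lam j| ^ γ = Cg γ * II γ W →
  ∃ (Y : Mat m N) (k c : Fin N → ℝ), Yᴴ * Y = 1 ∧ (∀ i, 0 < k i) ∧
    ∀ᵐ x, W x = Y * dg (fun i => wS (γ - 1 / 2) (k i) (c i) x) * Yᴴ

/-- direct sums of solitons have an optimal system -/
def CONV : Prop := ∀ γ : ℝ, 1 / 2 < γ → ∀ (m N : ℕ) (W : ℝ → Mat m m) (Y : Mat m N)
  (k c : Fin N → ℝ), Yᴴ * Y = 1 → (∀ i, 0 < k i) →
  (∀ᵐ x, W x = Y * dg (fun i => wS (γ - 1 / 2) (k i) (c i) x) * Yᴴ) →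
  ∃ (lam : Fin N → ℝ) (f f' : Fin N → ℝ → Vec m), Sys W lam f f' ∧
    ∑ j, |lam j| ^ γ = Cg γ * II γ W

/-- the equality cases -/
def MAIN : Prop := ∀ γ : ℝ, 1 / 2 < γ → γ < 3 / 2 → ∀ (m : ℕ) (W : ℝ → Mat m m),
  LT.Potential (γ + 1 / 2) W →
  (LT.rieszMean γ W = ENNReal.ofReal (2 * ((γ - 1 / 2) / (γ + 1 / 2)) ^ (γ - 1 / 2) * LT.Lcl γ *
      LT.intTr (γ + 1 / 2) W) ↔
    ∃ (U : Mat m m) (a c : Fin m → ℝ), U ∈ Matrix.unitaryGroup (Fin m) ℂ ∧ (∀ i, 0 ≤ a i) ∧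
      ∀ᵐ x, W x = U * diagonal (fun i => (((γ - 1 / 2) * (γ + 1 / 2) * a i ^ 2 /
        Real.cosh (a i * (x - c i)) ^ 2 : ℝ) : ℂ)) * Uᴴ)

end Vale.Agent.P371E
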